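import Vale.Agent.P101.Lit.Model.Push
import Vale.Agent.P101.Lit.Transfer.MapSt
import Vale.Agent.P095.Action

/-!
P095: the entrywise action on the stages `A ⊗ I(p,q)`, and cocycle conjugacy of an action with its
tensor product with the trivial action on the Jiang-Su algebra.
-/

open scoped unitInterval ComplexOrder

namespace Vale.Agent.P095.Lit

open Vale.Agent.P101.Lit

variable {A : Type*} [CStarAlgebra A] [PartialOrder A] [StarOrderedRing A]

/-- `f ⊗ id` on a stage: apply `f` to every entry. -/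
noncomputable def mapSt (f : A →⋆ₐ[ℂ] A) (p q : ℕ) : St A p q →⋆ₐ[ℂ] St A p q where
  toFun x := ⟨⟨fun t => CStarMatrix.ofMatrix <| Matrix.of fun i j => f ((x : Amb A p q) t i j),
      continuous_pi fun i => continuous_pi fun j => (continuous_starAlgHom f).comp
        ((continuous_apply_apply i j).comp (x : Amb A p q).continuous)⟩,
    by
      obtain ⟨a, ha⟩ := x.2.1
      exact ⟨fun i i' => f (a i i'), fun i j => by
        refine (congrArg f (ha i j)).trans ?_
        split_ifs <;> simp⟩,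
    by
      obtain ⟨a, ha⟩ := x.2.2
      exact ⟨fun i i' => f (a i i'), fun i j => by
        refine (congrArg f (ha i j)).trans ?_
        split_ifs <;> simp⟩⟩
  map_one' := Subtype.ext (ContinuousMap.ext fun t => CStarMatrix.ext fun i j => by
    simp [CStarMatrix.one_apply, apply_ite f])
  map_mul' x y := Subtype.ext (ContinuousMap.ext fun t => CStarMatrix.ext fun i j => by
    show f ((((x : Amb A p q) t) * ((y : Amb A p q) t)) i j) =
      ∑ z, f ((x : Amb A p q) t i z) * f ((y : Amb A p q) t z j)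
    simp [CStarMatrix.mul_apply])
  map_zero' := Subtype.ext (ContinuousMap.ext fun t => CStarMatrix.ext fun i j => by simp)
  map_add' x y := Subtype.ext (ContinuousMap.ext fun t => CStarMatrix.ext fun i j => by
    show f ((x : Amb A p q) t i j + (y : Amb A p q) t i j) = _
    rw [map_add]; rfl)
  commutes' r := Subtype.ext (ContinuousMap.ext fun t => CStarMatrix.ext fun i j => by
    simp only [Algebra.algebraMap_eq_smul_one]
    simp [CStarMatrix.one_apply, apply_ite f, map_smul])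
  map_star' x := Subtype.ext (ContinuousMap.ext fun t => CStarMatrix.ext fun i j => by
    show f (star ((x : Amb A p q) t j i)) = star (f ((x : Amb A p q) t j i))
    exact map_star f _)

@[simp] theorem mapSt_apply (f : A →⋆ₐ[ℂ] A) {p q : ℕ} (x : St A p q) (t : I) (i j : Ix p q) :
    (mapSt f p q x : Amb A p q) t i j = f ((x : Amb A p q) t i j) := rfl

theorem mapSt_cst (f : A →⋆ₐ[ℂ] A) {p q : ℕ} (a : A) :
    mapSt f p q (cst A p q a) = cst A p q (f a) :=
  Subtype.ext (ContinuousMap.ext fun t => CStarMatrix.ext fun i j => by simp [apply_ite f])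

theorem mapSt_lift (f : A →⋆ₐ[ℂ] A) {p q : ℕ} (g : St ℂ p q) :
    mapSt f p q (lift A p q g) = lift A p q g :=
  Subtype.ext (ContinuousMap.ext fun t => CStarMatrix.ext fun i j => AlgHomClass.commutes f _)

theorem mapSt_stepHom (f : A →⋆ₐ[ℂ] A) (i : ℕ) (x : St A (pp i) (qq i)) :
    mapSt f _ _ (stepHom A i x) = stepHom A i (mapSt f _ _ x) :=
  Subtype.ext (ContinuousMap.ext fun t => CStarMatrix.ext fun a b => by
    show f (stepVal (stepPath (pp i) (qq i) (kl i) (kr i) t)
        (fun w i₁ i₂ => (x : Amb A (pp i) (qq i)) (xi (pp i) (qq i) (kl i) (kr i) w t) i₁ i₂) a b) =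
      stepVal (stepPath (pp i) (qq i) (kl i) (kr i) t)
        (fun w i₁ i₂ => f ((x : Amb A (pp i) (qq i)) (xi (pp i) (qq i) (kl i) (kr i) w t) i₁ i₂)) a b
    simp only [stepVal, map_sum, map_smul])

theorem mapSt_push (f : A →⋆ₐ[ℂ] A) (i n : ℕ) (x : St A (pp i) (qq i)) :
    mapSt f _ _ (push A i n x) = push A i n (mapSt f _ _ x) := by
  induction n with
  | zero => rfl
  | succ n ih => rw [push_succ, push_succ, ← ih]; exact mapSt_stepHom f (i + n) _

theorem norm_mapSt_le (f : A →⋆ₐ[ℂ] A) {p q : ℕ} (x : St A p q) : ‖mapSt f p q x‖ ≤ ‖x‖ :=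
  NonUnitalStarAlgHom.norm_apply_le (mapSt f p q) x

/-- The action `α` is cocycle conjugate to `α ⊗ id` on the limit of the stages `A ⊗ I(pp i, qq i)`:
compatible isometric homomorphisms of the stages into `A` with dense union of ranges carry
`α_g ⊗ id` to `Ad (u g) ∘ α_g` for an `α`-cocycle `u`. -/
def IsEquivZStable {G : Type*} [Group G] (α : G → A ≃⋆ₐ[ℂ] A) : Prop :=
  ∃ (j : ∀ i, St A (pp i) (qq i) →⋆ₐ[ℂ] A) (u : G → A),
    (∀ i f, ‖j i f‖ = ‖f‖) ∧
    (∀ i (f : St A (pp i) (qq i)),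
      ∃ h : step (kl i) (kr i) (f : Amb A (pp i) (qq i)) ∈ St A (pp (i + 1)) (qq (i + 1)),
        j (i + 1) ⟨_, h⟩ = j i f) ∧
    Dense (⋃ i, Set.range (j i)) ∧
    (∀ g, u g ∈ unitary A) ∧ (∀ g h, u (g * h) = u g * α g (u h)) ∧
    ∀ i g (f : St A (pp i) (qq i)),
      j i (mapSt (autHom α g) _ _ f) = u g * α g (j i f) * star (u g)

/-- The absorption property with almost invariant unitaries. -/
def AbsorbsEquiv {G : Type*} [Group G] (α : G → A ≃⋆ₐ[ℂ] A) : Prop :=
  ∀ (F : Finset A) (i : ℕ) (X : Finset (St A (pp i) (qq i))) (K : Finset G) (ε : ℝ), 0 < ε →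
    ∃ n, 1 ≤ n ∧ ∃ v ∈ unitary (St A (pp (i + n)) (qq (i + n))),
      (∀ a ∈ F, ‖v * cst A _ _ a - cst A _ _ a * v‖ ≤ ε) ∧
      (∀ g ∈ K, ‖mapSt (autHom α g) _ _ v - v‖ ≤ ε) ∧
      ∀ x ∈ X, ∃ c : A, ‖push A i n x - v * cst A _ _ c * star v‖ ≤ ε

theorem mapSt_eq (f : A →⋆ₐ[ℂ] A) {p q : ℕ} (x : St A p q) :
    mapSt f p q x = P101.Lit.mapSt f x :=
  Subtype.ext (ContinuousMap.ext fun _ => CStarMatrix.ext fun _ _ => rfl)

end Vale.Agent.P095.Lit
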