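import Vale.Agent.P101.Lit.Transfer
import Vale.Agent.P095.Lit.Defs
import Vale.Agent.P095.Main

/-! P095: a flip and an invariant map into `F_ω(A)` give almost invariant unitaries over `A`. -/

namespace Vale.Agent.P101.Lit

open scoped unitInterval ComplexOrder
open Filter Topology

section EquivariantTransfer

/-- From an almost unitary `y` to a unitary, keeping commutators and conjugates. -/
theorem exists_unitary_adjust_dist {R : Type*} [CStarAlgebra R] {y : R} {δ M : ℝ} (hδ0 : 0 < δ) (hδ : δ ≤ 1 / 24) (hM : 0 < M)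
    (h₁ : ‖star y * y - 1‖ < 3 * δ) (h₂ : ‖y * star y - 1‖ < 3 * δ) :
    ∃ v ∈ unitary R, ‖v - y‖ ≤ 12 * δ ∧ (∀ a : R, ‖a‖ ≤ M →
        ‖v * a - a * v‖ ≤ ‖y * a - a * y‖ + 24 * δ * M) ∧
      ∀ c l : R, ‖c‖ ≤ M → ‖l - v * c * star v‖ ≤ ‖y * c * star y - l‖ + 36 * δ * M := by
  obtain ⟨v, hv, hvy⟩ := exists_unitary_near (y := y) (δ := 3 * δ) (by linarith) h₁.le h₂.le
  have hvy' : ‖v - y‖ ≤ 12 * δ := hvy.trans (by linarith)
  have hvn := norm_le_one_of_unitary hv
  have hyn : ‖y‖ ≤ 2 := by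
    linarith [norm_le_norm_add_norm_sub' y v, norm_sub_rev y v]
  refine ⟨v, hv, hvy', fun a ha => ?_, fun c l hc => ?_⟩
  · have e : v * a - a * v = (y * a - a * y) + ((v - y) * a - a * (v - y)) := by noncomm_ring
    rw [e]
    have h2 : ‖(v - y) * a‖ ≤ 12 * δ * M :=
      (norm_mul_le _ _).trans (mul_le_mul hvy' ha (norm_nonneg _) (by positivity))
    have h3 : ‖a * (v - y)‖ ≤ M * (12 * δ) :=
      (norm_mul_le _ _).trans (mul_le_mul ha hvy' (norm_nonneg _) hM.le)
    nlinarith [norm_add_le (y * a - a * y) ((v - y) * a - a * (v - y)),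
      norm_sub_le ((v - y) * a) (a * (v - y))]
  · have h2 := norm_conj_perturb v y c
    have h3 : ‖v - y‖ * ‖c‖ * (‖v‖ + ‖y‖) ≤ 12 * δ * M * 3 :=
      mul_le_mul (mul_le_mul hvy' hc (norm_nonneg _) (by positivity)) (by linarith)
        (by positivity) (by positivity)
    have h4 := norm_sub_le_norm_sub_add_norm_sub (v * c * star v) (y * c * star y) l
    rw [norm_sub_rev]
    nlinarith

variable {A B C : Type*} [CStarAlgebra A] [PartialOrder A] [StarOrderedRing A]
  [CStarAlgebra B] [PartialOrder B] [StarOrderedRing B]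
  [CStarAlgebra C] [PartialOrder C] [StarOrderedRing C] {p q : ℕ}

set_option maxHeartbeats 1600000 in
-- the instances of the stages are expensive to unify
/-- Transfer: `B` is a limit algebra of `A` along `l`, with representatives in `C`. -/
theorem transfer_core_equiv {H : Type*} {D : Type*} [CStarAlgebra D] [PartialOrder D]
    [StarOrderedRing D] {l : Filter ℕ} [l.NeBot] (π : C →⋆ₐ[ℂ] B) (hπ : Function.Surjective π)
    (φ : ℕ → C →⋆ₐ[ℂ] A) (hnull : ∀ c, π c = 0 → Tendsto (fun n => φ n c) l (𝓝 0))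
    (hcomm : ∀ c a, Tendsto (fun n => φ n c * a - a * φ n c) l (𝓝 0))
    (sg : H → A →⋆ₐ[ℂ] A) (ψ : D →⋆ₐ[ℂ] B)
    (hinv : ∀ h c d, π c = ψ d → Tendsto (fun n => sg h (φ n c) - φ n c) l (𝓝 0))
    {G : Set (St ℂ p q)} (hG : G.Finite) (β : St ℂ p q → B) {ε : ℝ} (hε : 0 < ε)
    {w : St D p q} (hV : mapSt ψ w ∈ unitary (St B p q))
    (hVG : ∀ g ∈ G, ‖mapSt ψ w * cst B p q (β g) * star (mapSt ψ w) - lift B p q g‖ ≤ ε)
    (F : Finset A) (K : Finset H) :
    ∃ v ∈ unitary (St A p q),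
      (∀ a ∈ F, ‖v * cst A p q a - cst A p q a * v‖ ≤ ε) ∧
      (∀ h ∈ K, ‖mapSt (sg h) v - v‖ ≤ ε) ∧
      ∀ g ∈ G, ∃ c : A, ‖lift A p q g - v * cst A p q c * star v‖ ≤ 2 * ε := by
  choose rep hrep using hπ
  obtain ⟨M, hM0, hM1, hMF, hMG⟩ : ∃ M : ℝ, 0 < M ∧ 1 ≤ M ∧ (∀ a ∈ F, ‖a‖ ≤ M) ∧
      ∀ g ∈ G, ‖β g‖ ≤ M ∧ ‖rep (β g)‖ ≤ M := by
    have h0 : 0 ≤ ∑ a ∈ F, ‖a‖ := Finset.sum_nonneg fun a _ => norm_nonneg a
    have h1 : 0 ≤ ∑ g ∈ hG.toFinset, (‖β g‖ + ‖rep (β g)‖) :=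
      Finset.sum_nonneg fun g _ => by positivity
    refine ⟨1 + (∑ a ∈ F, ‖a‖) + ∑ g ∈ hG.toFinset, (‖β g‖ + ‖rep (β g)‖), by linarith, by linarith,
      fun a ha => ?_, fun g hg => ?_⟩
    · linarith [Finset.single_le_sum (fun a _ => norm_nonneg a) ha]
    · have h2 := Finset.single_le_sum (f := fun g => ‖β g‖ + ‖rep (β g)‖)
        (fun g _ => by positivity) (hG.mem_toFinset.2 hg)
      constructor <;> linarith [norm_nonneg (β g), norm_nonneg (rep (β g))]
  set δ := min (1 / 24) (ε / (80 * M)) with hδ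
  have hδ0 : 0 < δ := lt_min (by norm_num) (by positivity)
  have hδ1 : δ ≤ 1 / 24 := min_le_left _ _
  have hδM : δ * M ≤ ε / 80 := by
    have := (le_div_iff₀ (by positivity)).1 (min_le_right (1 / 24) (ε / (80 * M)))
    linarith
  obtain ⟨m, d, h, hd⟩ := exists_tensor_approx w hδ0
  set b : Fin m → B := fun i => ψ (d i) with hbdef
  set V := mapSt ψ w with hVdef
  have hb : ‖V - ∑ i, cst B p q (b i) * lift B p q (h i)‖ ≤ δ := by
    rw [hbdef, hVdef, ← mapSt_tensor, ← map_sub]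
    exact (NonUnitalStarAlgHom.norm_apply_le _ _).trans hd
  set x : St C p q := ∑ i, cst C p q (rep (b i)) * lift C p q (h i) with hx
  have hπx : mapSt π x = ∑ i, cst B p q (b i) * lift B p q (h i) := by
    rw [hx, mapSt_tensor]; simp only [hrep]
  have hXV : ‖mapSt π x - V‖ ≤ δ := by rw [hπx, norm_sub_rev]; exact hb
  have key : ∀ (z : St C p q) {c : ℝ}, ‖mapSt π z‖ < c →
      ∀ᶠ n in l, ‖mapSt (φ n) z‖ < c := fun z c hc => eventually_norm_lt π φ hnull z hc
  obtain ⟨hX1, hX2⟩ := norm_near_unitary hV hδ0 (by linarith) hXV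
  have e1 := key (star x * x - 1) (c := 3 * δ) (by rwa [map_sub, map_mul, map_star, map_one])
  have e2 := key (x * star x - 1) (c := 3 * δ) (by rwa [map_sub, map_mul, map_star, map_one])
  have e3 : ∀ᶠ n in l, ∀ g ∈ G,
      ‖mapSt (φ n) x * cst A p q (φ n (rep (β g))) * star (mapSt (φ n) x) - lift A p q g‖
        < ε + 4 * δ * M := by
    refine hG.eventually_all.2 fun g hg => ?_
    have hlt := norm_conj_near hV hδ0 (by linarith) hM0 hXV
      ((NonUnitalStarAlgHom.norm_apply_le _ _).trans (hMG g hg).1) (hVG g hg)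
    filter_upwards [key (x * cst C p q (rep (β g)) * star x - lift C p q g)
      (c := ε + 4 * δ * M)
      (by rwa [map_sub, map_mul, map_mul, map_star, mapSt_cst, mapSt_lift, hrep])] with n hn
    rwa [map_sub, map_mul, map_mul, map_star, mapSt_cst, mapSt_lift] at hn
  have e4 : ∀ᶠ n in l, ∀ a ∈ F,
      ‖mapSt (φ n) x * cst A p q a - cst A p q a * mapSt (φ n) x‖ < ε / 2 := by
    refine F.eventually_all.2 fun a _ => ?_
    have hT : Tendsto (fun n => ∑ i, ‖φ n (rep (b i)) * a - a * φ n (rep (b i))‖ *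
        ‖lift A p q (h i)‖) l (𝓝 0) := by
      simpa using tendsto_finsetSum Finset.univ fun i _ =>
        ((tendsto_zero_iff_norm_tendsto_zero.1 (hcomm (rep (b i)) a)).mul_const
          ‖lift A p q (h i)‖)
    filter_upwards [hT.eventually (gt_mem_nhds (half_pos hε))] with n hn
    rw [hx, mapSt_tensor]
    exact (norm_tensor_commutator_le _ h a).trans_lt hn
  have e5 : ∀ᶠ n in l, ∀ k ∈ K,
      ‖mapSt (sg k) (mapSt (φ n) x) - mapSt (φ n) x‖ < ε / 2 := by
    refine K.eventually_all.2 fun k _ => ?_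
    have hT : Tendsto (fun n => ∑ i, ‖sg k (φ n (rep (b i))) - φ n (rep (b i))‖ *
        ‖lift A p q (h i)‖) l (𝓝 0) := by
      simpa using tendsto_finsetSum Finset.univ fun i _ =>
        ((tendsto_zero_iff_norm_tendsto_zero.1 (hinv k (rep (b i)) (d i) (hrep _))).mul_const
          ‖lift A p q (h i)‖)
    filter_upwards [hT.eventually (gt_mem_nhds (half_pos hε))] with n hn
    rw [hx, mapSt_tensor, mapSt_tensor, ← Finset.sum_sub_distrib]
    refine ((norm_sum_le _ _).trans (Finset.sum_le_sum fun i _ => ?_)).trans_lt hn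
    rw [← sub_mul, ← map_sub]
    exact (norm_mul_le _ _).trans (mul_le_mul_of_nonneg_right
      (NonUnitalStarAlgHom.norm_apply_le _ _) (norm_nonneg _))
  obtain ⟨n, hn1, hn2, hn3, hn4, hn5⟩ := (e1.and (e2.and (e3.and (e4.and e5)))).exists
  rw [map_sub, map_mul, map_star, map_one] at hn1 hn2
  obtain ⟨v, hv, hvy, hva, hvc⟩ := exists_unitary_adjust_dist hδ0 hδ1 hM0 hn1 hn2
  refine ⟨v, hv, fun a ha => ?_, fun k hk => ?_, fun g hg => ⟨φ n (rep (β g)), ?_⟩⟩
  · have := hva _ ((NonUnitalStarAlgHom.norm_apply_le (cst A p q) a).trans (hMF a ha))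
    linarith [hn4 a ha]
  · have e : mapSt (sg k) v - v = (mapSt (sg k) (v - mapSt (φ n) x)) +
        (mapSt (sg k) (mapSt (φ n) x) - mapSt (φ n) x) + (mapSt (φ n) x - v) := by
      rw [map_sub]; abel
    rw [e]
    refine (norm_add₃_le).trans ?_
    have h1 : ‖mapSt (sg k) (v - mapSt (φ n) x)‖ ≤ 12 * δ :=
      (NonUnitalStarAlgHom.norm_apply_le _ _).trans hvy
    have h2 : 24 * δ ≤ ε / 2 := by
      have hδ' : δ ≤ ε / 80 := le_trans (le_mul_of_one_le_right hδ0.le hM1) hδM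
      linarith
    rw [norm_sub_rev (mapSt (φ n) x) v]
    linarith [hn5 k hk]
  · have := hvc (cst A p q (φ n (rep (β g)))) (lift A p q g)
      ((NonUnitalStarAlgHom.norm_apply_le (cst A p q) _).trans
        ((NonUnitalStarAlgHom.norm_apply_le (φ n) _).trans (hMG g hg).2))
    linarith [hn3 g hg]

end EquivariantTransfer

end Vale.Agent.P101.Lit

namespace Vale.Agent.P095.Lit

open Vale.Agent.P101 Vale.Agent.P101.Lit
open scoped unitInterval ComplexOrder BoundedContinuousFunction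
open Filter Topology

variable {A : Type*} [CStarAlgebra A] [PartialOrder A] [StarOrderedRing A] {ω : Ultrafilter ℕ}

set_option maxHeartbeats 800000 in
-- the instances of the stages over `F_ω(A)` are expensive to unify
theorem exists_transfer_equiv {H : Type*} [Group H] (α : H → A ≃⋆ₐ[ℂ] A) {p q : ℕ}
    (ψ : St ℂ p q →⋆ₐ[ℂ] Fomega A ω) (hψ : ∀ g x, fomegaAct α g (ψ x) = ψ x)
    {G : Set (St ℂ p q)} (hG : G.Finite) {ε : ℝ} (hε : 0 < ε) {W : C(I × I, Mat2 p q)}
    (hW : IsFlip G ε W) (F : Finset A) (K : Finset H) :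
    ∃ v ∈ unitary (St A p q),
      (∀ a ∈ F, ‖v * cst A p q a - cst A p q a * v‖ ≤ ε) ∧
      (∀ h ∈ K, ‖mapSt (autHom α h) p q v - v‖ ≤ ε) ∧
      ∀ g ∈ G, ∃ c : A, ‖lift A p q g - v * cst A p q c * star v‖ ≤ 2 * ε := by
  let _ : PartialOrder (St ℂ p q) := CStarAlgebra.spectralOrder _
  have : StarOrderedRing (St ℂ p q) := CStarAlgebra.spectralOrderedRing _
  let _ : PartialOrder (centralSeq A ω) := CStarAlgebra.spectralOrder _
  have : StarOrderedRing (centralSeq A ω) := CStarAlgebra.spectralOrderedRing _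
  let _ : PartialOrder (Fomega A ω) := CStarAlgebra.spectralOrder _
  have : StarOrderedRing (Fomega A ω) := CStarAlgebra.spectralOrderedRing _
  obtain ⟨w, hwU, hwG⟩ := exists_double_flip hε.le hW
  obtain ⟨v, hv, hvF, hvK, hvG⟩ :=
    transfer_core_equiv (fomegaMk : centralSeq A ω →⋆ₐ[ℂ] Fomega A ω)
      (Ideal.Quotient.mk_surjective (R := centralSeq A ω)) (fun n => evalSeq n)
      tendsto_of_fomegaMk_eq_zero (fun c a => c.2 a) (autHom α) ψ
      (fun h c d hcd => (fomegaAct_mk_eq_iff α h c).1 (by rw [hcd, hψ]))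
      hG ψ hε (mapSt_mem_unitary ψ hwU) (fun g hg => push_double_flip ψ (hwG g hg)) F K
  exact ⟨v, hv, hvF, fun h hh => by rw [mapSt_eq]; exact hvK h hh, hvG⟩

end Vale.Agent.P095.Lit
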