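import Vale.Agent.P101.Fomega.Main
import Vale.Agent.P101.Lit.Hom.Main
import Vale.Agent.P095.EquivCopies
import Vale.Agent.P095.SI.Defs

/-!
P095: for a countable group the fixed point algebra of `F_ω(A)` has copies; with an invariant
dimension drop pair this gives maps of all stages `I(2^a,3^b)` into the fixed point algebra.
-/

open Filter Topology BoundedContinuousFunction
open scoped ComplexOrder

namespace Vale.Agent.P095.Lit

open Vale.Agent.P101 Vale.Agent.P101.Lit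

variable {A : Type*} [CStarAlgebra A] {ω : Ultrafilter ℕ} {G : Type*}

/-- As `exists_reindexHom`, keeping countably many further norms under control. -/
theorem exists_reindexHom_countable [TopologicalSpace.SeparableSpace A]
    (hω : (ω : Filter ℕ) ≤ atTop) {Gs : Set (centralSeq A ω)} (hG : Gs.Finite)
    (hGs : ∀ g ∈ Gs, star g ∈ Gs) {Y : Set (centralSeq A ω)} (hY : Y.Finite)
    {E : Set (centralSeq A ω)} (hE : E.Countable) :
    ∃ k : ℕ → ℕ, ∃ hC : StarAlgebra.adjoin ℂ Gs ≤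
        (centralSeq A ω).comap ((reindex k).comp (centralSeq A ω).subtype),
      (∀ x, ‖reindexHom k hC x‖ ≤ ‖fomegaMk (x : centralSeq A ω)‖) ∧
      (∀ x, ∀ y ∈ Y, Commute (reindexHom k hC x) (fomegaMk y)) ∧
      ∀ d ∈ E, ∀ ε > 0, ∀ᶠ n in (ω : Filter ℕ),
        ‖(d : ℕ →ᵇ A) (k n)‖ ≤ ‖fomegaMk d‖ + ε := by
  obtain ⟨e₀, he₀⟩ := exists_seq_dense_adjoin hG hGs
  obtain ⟨e, he⟩ := ((Set.countable_range e₀).union hE).exists_eq_range
    ⟨e₀ 0, Or.inl ⟨0, rfl⟩⟩
  obtain ⟨k, hkC, hkN, hkY⟩ := exists_reindex hω hG hY e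
  have hsub : (StarAlgebra.adjoin ℂ Gs : Set (centralSeq A ω)) ⊆ closure (Set.range e) :=
    he₀.trans (closure_mono (he ▸ Set.subset_union_left))
  refine ⟨k, StarAlgebra.adjoin_le hkC, fun x => ?_, fun x y hy => ?_, fun d hd ε hε => ?_⟩
  · refine le_of_forall_pos_le_add fun ε hε => ?_
    obtain ⟨_, ⟨i, rfl⟩, hi⟩ := Metric.mem_closure_iff.1 (hsub x.2) (ε / 3) (by positivity)
    rw [reindexHom_apply]
    refine norm_mk_le_of_eventually _ ?_
    filter_upwards [hkN i (ε / 3) (by positivity)] with n hn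
    change ‖((x : centralSeq A ω) : ℕ →ᵇ A) (k n)‖ ≤ ‖fomegaMk (x : centralSeq A ω)‖ + ε
    rw [dist_eq_norm] at hi
    have h1 : ‖((x : centralSeq A ω) : ℕ →ᵇ A) (k n) - (e i : ℕ →ᵇ A) (k n)‖ ≤ ε / 3 :=
      (((x - e i : centralSeq A ω) : ℕ →ᵇ A).norm_coe_le_norm (k n)).trans hi.le
    have h2 : ‖Ideal.Quotient.mk (nullIdeal A ω) (e i) - fomegaMk (x : centralSeq A ω)‖ ≤ ε / 3 := by
      rw [norm_sub_rev]
      refine le_of_eq_of_le ?_
        ((Submodule.Quotient.norm_mk_le (nullIdeal A ω) ((x : centralSeq A ω) - e i)).trans hi.le)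
      rfl
    linarith [norm_le_norm_add_norm_sub' (((x : centralSeq A ω) : ℕ →ᵇ A) (k n))
      ((e i : ℕ →ᵇ A) (k n)),
      norm_le_norm_add_norm_sub' (Ideal.Quotient.mk (nullIdeal A ω) (e i))
        (fomegaMk (x : centralSeq A ω))]
  · obtain ⟨x, hx⟩ := x
    have hx' := mem_algebraAdjoin_of_mem_adjoin hGs hx
    induction hx' using Algebra.adjoin_induction with
    | mem g hg => exact Ideal.Quotient.eq.2 (hkY g hg y hy)
    | algebraMap r =>
      rw [show (⟨algebraMap ℂ (centralSeq A ω) r, hx⟩ : StarAlgebra.adjoin ℂ Gs) =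
        algebraMap ℂ (StarAlgebra.adjoin ℂ Gs) r from rfl, AlgHomClass.commutes]
      exact Algebra.commutes r _
    | add u v hu hv ihu ihv =>
      have hu' := Algebra.adjoin_le (S := (StarAlgebra.adjoin ℂ Gs).toSubalgebra)
        (StarAlgebra.subset_adjoin ℂ Gs) hu
      have hv' := Algebra.adjoin_le (S := (StarAlgebra.adjoin ℂ Gs).toSubalgebra)
        (StarAlgebra.subset_adjoin ℂ Gs) hv
      rw [show (⟨u + v, hx⟩ : StarAlgebra.adjoin ℂ Gs) = ⟨u, hu'⟩ + ⟨v, hv'⟩ from rfl, map_add]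
      exact (ihu hu').add_left (ihv hv')
    | mul u v hu hv ihu ihv =>
      have hu' := Algebra.adjoin_le (S := (StarAlgebra.adjoin ℂ Gs).toSubalgebra)
        (StarAlgebra.subset_adjoin ℂ Gs) hu
      have hv' := Algebra.adjoin_le (S := (StarAlgebra.adjoin ℂ Gs).toSubalgebra)
        (StarAlgebra.subset_adjoin ℂ Gs) hv
      rw [show (⟨u * v, hx⟩ : StarAlgebra.adjoin ℂ Gs) = ⟨u, hu'⟩ * ⟨v, hv'⟩ from rfl, map_mul]
      exact (ihu hu').mul_left (ihv hv')
  · obtain ⟨i, rfl⟩ : d ∈ Set.range e := he ▸ Or.inr hd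
    exact hkN i ε hε

/-- Generators sent to fixed points give a map into the fixed points. -/
theorem fixed_of_gen {B : Type*} [CStarAlgebra B] {s : Set B} (f : B →⋆ₐ[ℂ] B)
    (Φ : cstarGen s →⋆ₐ[ℂ] B)
    (h : ∀ x (hx : x ∈ s), f (Φ ⟨x, mem_cstarGen_of_mem hx⟩) = Φ ⟨x, mem_cstarGen_of_mem hx⟩)
    (z : cstarGen s) : f (Φ z) = Φ z :=
  cstarGen_induction (T := StarAlgHom.equalizer (f.comp Φ) Φ)
    (isClosed_eq ((continuous_starAlgHom f).comp (continuous_starAlgHom Φ))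
      (continuous_starAlgHom Φ)) h z

variable [TopologicalSpace.SeparableSpace A] [Countable G]

theorem hasCopies_fixed (hω : (ω : Filter ℕ) ≤ atTop) (α : G → A ≃⋆ₐ[ℂ] A) [Group G] :
    HasCopies (fixedAlg (fomegaAct (ω := ω) α)) := by
  classical
  intro F S
  let FB : Finset (Fomega A ω) := F.image Subtype.val
  have hfixF : ∀ x ∈ FB, ∀ g, fomegaAct α g x = x := fun x hx g => by
    obtain ⟨y, -, rfl⟩ := Finset.mem_image.1 hx
    exact y.2 g
  choose rep hrep using Ideal.Quotient.mk_surjective (I := nullIdeal A ω)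
  have hrep' : ∀ y : Fomega A ω, fomegaMk (rep y) = y := hrep
  let G₀ : Set (centralSeq A ω) := rep '' FB
  let Gs : Set (centralSeq A ω) := G₀ ∪ star '' G₀
  have hG₀ : G₀.Finite := FB.finite_toSet.image _
  have hGs : ∀ g ∈ Gs, star g ∈ Gs := by
    rintro g (hg | ⟨x, hx, rfl⟩)
    · exact Or.inr ⟨g, hg, rfl⟩
    · exact Or.inl (by rwa [star_star])
  let E : Set (centralSeq A ω) := ⋃ g : G, (fun r => centralMap α g r - r) '' G₀
  have hE : E.Countable := Set.countable_iUnion fun g => (hG₀.image _).countable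
  obtain ⟨k, hC, hψ, hcomm, hnull⟩ := exists_reindexHom_countable hω (hG₀.union (hG₀.image _)) hGs
    (((S.image Subtype.val : Finset (Fomega A ω)).finite_toSet).image rep) hE
  obtain ⟨φ₀, hφ₀⟩ := exists_dominated_hom (fomegaMk.comp (StarAlgebra.adjoin ℂ Gs).subtype)
    (reindexHom k hC) hψ
  have hle : cstarGen (FB : Set (Fomega A ω)) ≤
      (fomegaMk.comp (StarAlgebra.adjoin ℂ Gs).subtype).range.topologicalClosure := by
    refine StarSubalgebra.topologicalClosure_mono (StarAlgebra.adjoin_le fun x hx => ?_)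
    exact ⟨⟨rep x, StarAlgebra.subset_adjoin ℂ Gs (Or.inl ⟨x, hx, rfl⟩)⟩, hrep x⟩
  let Φ : cstarGen (FB : Set (Fomega A ω)) →⋆ₐ[ℂ] Fomega A ω :=
    φ₀.comp (StarSubalgebra.inclusion hle)
  have hfix : ∀ g z, fomegaAct α g (Φ z) = Φ z := fun g z =>
    fixed_of_gen (fomegaAct α g) Φ (fun x hx => by
      have hr : rep x ∈ StarAlgebra.adjoin ℂ Gs :=
        StarAlgebra.subset_adjoin ℂ Gs (Or.inl ⟨x, hx, rfl⟩)
      rw [StarAlgHom.comp_apply, (hφ₀ (StarSubalgebra.inclusion hle ⟨x, mem_cstarGen_of_mem hx⟩)).2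
        ⟨rep x, hr⟩ (hrep' x).symm, reindexHom_apply, fomegaAct_mk]
      refine (mk_eq_iff _ _).2 (Metric.tendsto_nhds.2 fun ε hε => ?_)
      have h0 : fomegaMk (centralMap α g (rep x) - rep x) = 0 := by
        rw [map_sub, ← fomegaAct_mk, hrep', hfixF x hx g, sub_self]
      filter_upwards [hnull _ (Set.mem_iUnion.2 ⟨g, rep x, ⟨x, hx, rfl⟩, rfl⟩) (ε / 2)
        (half_pos hε)] with n hn
      rw [h0, norm_zero, zero_add] at hn
      rw [dist_zero_right]
      exact lt_of_le_of_lt hn (half_lt_self hε)) z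
  have hmem : ∀ x : cstarGen (F : Set (fixedAlg (fomegaAct (ω := ω) α))),
      ((x : fixedAlg (fomegaAct (ω := ω) α)) : Fomega A ω) ∈
        cstarGen (FB : Set (Fomega A ω)) := by
    intro x
    have h1 : StarAlgebra.adjoin ℂ (F : Set (fixedAlg (fomegaAct (ω := ω) α))) ≤
        (cstarGen (FB : Set (Fomega A ω))).comap (fixedAlg (fomegaAct (ω := ω) α)).subtype :=
      StarAlgebra.adjoin_le fun y hy =>
        mem_cstarGen_of_mem (Finset.mem_coe.2 (Finset.mem_image_of_mem _ hy))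
    exact closure_minimal h1 ((StarSubalgebra.isClosed_topologicalClosure _).preimage
      continuous_subtype_val) x.2
  refine ⟨((Φ.comp (((fixedAlg (fomegaAct (ω := ω) α)).subtype.comp
      (cstarGen (F : Set (fixedAlg (fomegaAct (ω := ω) α)))).subtype).codRestrict _ hmem))).codRestrict
      _ fun x g => hfix g _, fun z b hb => Subtype.ext ?_⟩
  refine closure_minimal ?_ (isClosed_eq (continuous_id.mul continuous_const)
    (continuous_const.mul continuous_id)) ((hφ₀ (StarSubalgebra.inclusion hle ⟨_, hmem z⟩)).1)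
  rintro _ ⟨x, rfl⟩
  have := hcomm x (rep (b : Fomega A ω)) ⟨b, Finset.mem_coe.2 (Finset.mem_image_of_mem _ hb), rfl⟩
  rwa [hrep'] at this

/-- An invariant pair in `F_ω(A)` gives maps of all stages into the fixed point algebra. -/
theorem exists_invariant_stageHom_of_pair [PartialOrder A] [StarOrderedRing A] [Group G]
    (hω : (ω : Filter ℕ) ≤ atTop) {α : G → A ≃⋆ₐ[ℂ] A} {c s : Fomega A ω}
    (hp : DimDropPair c s) (hcf : c ∈ fixedAlg (fomegaAct (ω := ω) α))
    (hsf : s ∈ fixedAlg (fomegaAct (ω := ω) α)) (i : ℕ) :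
    ∃ ψ : St ℂ (pp i) (qq i) →⋆ₐ[ℂ] Fomega A ω, ∀ g x, fomegaAct α g (ψ x) = ψ x := by
  have hp' : DimDropPair (⟨_, hcf⟩ : fixedAlg (fomegaAct (ω := ω) α)) ⟨_, hsf⟩ :=
    ⟨Subtype.ext hp.1, Subtype.ext hp.2.1, Subtype.ext hp.2.2⟩
  obtain ⟨ψ⟩ := nonempty_stageHom (hasCopies_fixed hω α) hp'
    (by have := (expo_bounds i).1; omega) (expo_bounds i).2 (pp_eq i) (qq_eq i)
  exact ⟨(fixedAlg (fomegaAct (ω := ω) α)).subtype.comp ψ, fun g x => (ψ x).2 g⟩

/-- An invariant pair along sequences gives maps of all stages into the fixed point algebra. -/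
theorem exists_invariant_stageHom [PartialOrder A] [StarOrderedRing A] [Group G]
    (hω : (ω : Filter ℕ) ≤ atTop) {α : G → A ≃⋆ₐ[ℂ] A}
    (hpair : SI.HasInvariantPair (⊤ : Submodule ℂ A) α) (i : ℕ) :
    ∃ ψ : St ℂ (pp i) (qq i) →⋆ₐ[ℂ] Fomega A ω, ∀ g x, fomegaAct α g (ψ x) = ψ x := by
  obtain ⟨c, s, hc1, hs2, hcc, hsc, hrel⟩ := hpair
  obtain ⟨r1, r2, r3, ract⟩ := hrel 1 trivial
  let cb : ℕ →ᵇ A := .ofNormedAddCommGroupDiscrete c 1 hc1
  let sb : ℕ →ᵇ A := .ofNormedAddCommGroupDiscrete s 2 hs2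
  have hc : cb ∈ centralSeq A ω := fun a =>
    tendsto_zero_iff_norm_tendsto_zero.2 ((hcc a trivial).mono_left hω)
  have hs : sb ∈ centralSeq A ω := fun a =>
    tendsto_zero_iff_norm_tendsto_zero.2 ((hsc a trivial).mono_left hω)
  have conv : ∀ z : ℕ → A, Tendsto (fun n => ‖z n * 1‖) atTop (𝓝 0) → Tendsto z ω (𝓝 0) :=
    fun z hz => tendsto_zero_iff_norm_tendsto_zero.2 (by simpa using hz.mono_left hω)
  have hp : DimDropPair (fomegaMk ⟨cb, hc⟩) (fomegaMk ⟨sb, hs⟩) :=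
    (dimDropPair_mk_iff ⟨cb, hc⟩ ⟨sb, hs⟩).2 ⟨conv _ r1, conv _ r2, conv _ r3⟩
  have hcf : fomegaMk ⟨cb, hc⟩ ∈ fixedAlg (fomegaAct (ω := ω) α) := fun g => by
    rw [fomegaAct_mk]; exact (mk_eq_iff _ _).2 (conv _ (ract g).1)
  have hsf : fomegaMk ⟨sb, hs⟩ ∈ fixedAlg (fomegaAct (ω := ω) α) := fun g => by
    rw [fomegaAct_mk]; exact (mk_eq_iff _ _).2 (conv _ (ract g).2)
  exact exists_invariant_stageHom_of_pair hω hp hcf hsf i

end Vale.Agent.P095.Lit
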