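import Vale.Agent.P095.SI.Defs

/-! P095: the hypotheses of the equivariant `Z`-stability theorem. -/

open Filter Topology
open scoped ComplexOrder

namespace Vale.Agent.P095.Lit

variable (A : Type*) [CStarAlgebra A]

/-- A tracial state. -/
def HasTrace : Prop :=
  ∃ τ : A →ₗ[ℂ] ℂ, (∀ x y, τ (x * y) = τ (y * x)) ∧ (∀ x, 0 ≤ τ (star x * x)) ∧ τ 1 = 1

/-- Asymptotically central sequences satisfying asymptotically the relations of `I(2,3)`. -/
def HasDimDropSeq : Prop :=
  ∃ (c s : ℕ → A) (C : ℝ), (∀ n, ‖c n‖ ≤ C ∧ ‖s n‖ ≤ C) ∧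
    (∀ a, Tendsto (fun n => c n * a - a * c n) atTop (𝓝 0) ∧
      Tendsto (fun n => s n * a - a * s n) atTop (𝓝 0)) ∧
    Tendsto (fun n => c n * c n) atTop (𝓝 0) ∧
    Tendsto (fun n => star (s n) * s n - (1 - star (c n) * c n - c n * star (c n))) atTop (𝓝 0) ∧
    Tendsto (fun n => star (c n) * c n * s n - s n) atTop (𝓝 0)

variable {A} {G : Type*} [Group G] (α : G → A ≃⋆ₐ[ℂ] A)

/-- Simple, with the approximation property, a trace and strict comparison; `G` amenable. -/
def IsAmenableCase [PartialOrder A] : Prop :=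
  SI.IsSimpleIdeal (⊤ : Submodule ℂ A) ∧ SI.HasCPApprox (⊤ : Submodule ℂ A) ∧
    SI.StrictComp (⊤ : Submodule ℂ A) (1 : A) ∧ HasTrace A ∧
    ∃ _ : DecidableEq G, SI.IsFolnerAction α

/-- Every finitely generated subgroup acts by finitely many automorphisms modulo inner ones. -/
def IsLocallyFiniteCase : Prop :=
  ∀ K : Finset G, ∃ T : Finset G, ∀ g ∈ Subgroup.closure (K : Set G),
    ∃ t ∈ T, ∃ u ∈ unitary A, ∀ a, α g a = u * α t a * star u

end Vale.Agent.P095.Lit
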