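import Vale.Agent.P101.Lit.Intertwine
import Vale.Agent.P095.Lit.Defs
import Vale.Agent.P095.Lit.Intertwine.Limit

/-! P095: the intertwining argument with the cocycle. -/

open scoped unitInterval ComplexOrder

namespace Vale.Agent.P095.Lit

open Vale.Agent.P101.Lit

variable {A : Type*} [CStarAlgebra A] [PartialOrder A] [StarOrderedRing A]
  [TopologicalSpace.SeparableSpace A] {G : Type*} [Group G] [Countable G]

theorem isEquivZStable_of_absorbs {α : G → A ≃⋆ₐ[ℂ] A} (h1 : ∀ a, α 1 a = a)
    (hmul : ∀ g h a, α (g * h) a = α g (α h a)) (hA : AbsorbsEquiv α) : IsEquivZStable α := by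
  have : ∀ k, TopologicalSpace.SeparableSpace (St A (pp k) (qq k)) := fun k => separableSpace_St _ _
  obtain ⟨j, hjn, hjc, hjd, u, hu, huc, hje⟩ := exists_limit_maps_cocycle
    (B := fun k => St A (pp k) (qq k))
    (fun h => conn h) (fun h h' x => conn_conn h h' x) (fun h x => norm_conn h x)
    (fun k => cst A (pp k) (qq k)) (fun h a => conn_cst h a) norm_cst
    (fun g => α g) (fun k g => mapSt (autHom α g) (pp k) (qq k))
    (fun k g g' x => Subtype.ext (ContinuousMap.ext fun t => CStarMatrix.ext fun a b => by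
      simp only [mapSt_apply]; exact hmul g g' _))
    (fun h g x => by
      obtain ⟨n, rfl⟩ := Nat.exists_eq_add_of_le h
      rw [conn_push, conn_push]; exact mapSt_push _ _ n x)
    (fun k g a => mapSt_cst _ a)
    (fun k F X K ε hε => by
      obtain ⟨n, -, v, hv, hvF, hvK, hvG⟩ := hA F k X K ε hε
      refine ⟨k + n, Nat.le_add_right k n, v, hv, hvK, hvF, fun x hx => ?_⟩
      obtain ⟨c, hc⟩ := hvG x hx
      refine ⟨c, le_of_eq_of_le ?_ hc⟩
      rw [← Intertwine.norm_conj hv (push A k n x - _), mul_sub (star v), sub_mul _ _ v,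
        P101.Lit.Intertwine.conj_conj' hv, conn_push])
  refine ⟨j, u, hjn, fun i f => ⟨step_mem (stepOK_pp i) f.2, ?_⟩, hjd, hu, huc, hje⟩
  refine Eq.trans (congrArg (j (i + 1)) ?_) (hjc i (i + 1) (Nat.le_succ i) f)
  exact ((conn_succ le_rfl _ f).trans (congrArg _ (conn_self _ f))).symm

end Vale.Agent.P095.Lit
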