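import Vale.Agent.P095.Lit.Intertwine
import Vale.Agent.P095.Lit.Approx
import Vale.Agent.P095.Lit.Fixed
import Vale.Agent.P095.Main
import Vale.Agent.P095.SI.Statement
import Vale.Agent.P101.Lit.Main

/-! P095: invariant dimension drop pairs give equivariant `Z`-stability. -/

open Filter
open scoped ComplexOrder

namespace Vale.Agent.P095.Lit

open Vale.Agent.P101 Vale.Agent.P101.Lit

variable {A : Type*} [CStarAlgebra A] [PartialOrder A] [StarOrderedRing A]
  [TopologicalSpace.SeparableSpace A] {ω : Ultrafilter ℕ} {G : Type*} [Group G] [Countable G]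

/-- An invariant pair in `F_ω(A)` gives equivariant `Z`-stability. -/
theorem isEquivZStable_of_fixed_pair (hω : (ω : Filter ℕ) ≤ atTop) {α : G → A ≃⋆ₐ[ℂ] A}
    (h1 : ∀ a, α 1 a = a) (hmul : ∀ g h a, α (g * h) a = α g (α h a)) {c s : Fomega A ω}
    (hp : DimDropPair c s) (hfix : ∀ g, fomegaAct α g c = c ∧ fomegaAct α g s = s) :
    IsEquivZStable α :=
  isEquivZStable_of_absorbs h1 hmul (absorbsEquiv_of_homs (ω := ω) fun i =>
    exists_invariant_stageHom_of_pair hω hp (fun g => (hfix g).1) (fun g => (hfix g).2) i)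

/-- Actions that are locally finite modulo inner automorphisms. -/
theorem isEquivZStable_of_locallyFinite (hω : (ω : Filter ℕ) ≤ atTop) {α : G → A ≃⋆ₐ[ℂ] A}
    (h1 : ∀ a, α 1 a = a) (hmul : ∀ g h a, α (g * h) a = α g (α h a))
    (hfin : ∀ K : Finset G, ∃ T : Finset G, ∀ g ∈ Subgroup.closure (K : Set G),
      ∃ t ∈ T, ∃ u ∈ unitary A, ∀ a, α g a = u * α t a * star u)
    (hF : IsEmpty (FomegaCharacter A ω)) : IsEquivZStable α := by
  obtain ⟨c, s, hcs, hfix⟩ := exists_fixed_dimDropPair_fomega hω h1 hmul (fun K => by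
    obtain ⟨T, hT⟩ := hfin K
    exact finite_range_fomegaAct α K T hT) (isEmpty_fomegaCharacter_iff.1 hF)
  exact isEquivZStable_of_fixed_pair hω h1 hmul hcs hfix

/-- Invariant pairs along sequences. -/
theorem isEquivZStable_of_invariantPair (hω : (ω : Filter ℕ) ≤ atTop) {α : G → A ≃⋆ₐ[ℂ] A}
    (h1 : ∀ a, α 1 a = a) (hmul : ∀ g h a, α (g * h) a = α g (α h a))
    (hp : SI.HasInvariantPair (⊤ : Submodule ℂ A) α) : IsEquivZStable α :=
  isEquivZStable_of_absorbs h1 hmul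
    (absorbsEquiv_of_homs (ω := ω) (exists_invariant_stageHom hω hp))

/-- Actions of amenable groups. -/
theorem isEquivZStable_of_amenable [DecidableEq G] (hω : (ω : Filter ℕ) ≤ atTop)
    (hA : SI.IsSimpleIdeal (⊤ : Submodule ℂ A)) (hcp : SI.HasCPApprox (⊤ : Submodule ℂ A))
    (hcomp : SI.StrictComp (⊤ : Submodule ℂ A) (1 : A))
    (hτ : ∃ τ : A →ₗ[ℂ] ℂ, (∀ x y, τ (x * y) = τ (y * x)) ∧
      (∀ x, 0 ≤ τ (star x * x)) ∧ τ 1 = 1)
    (hF : IsEmpty (FomegaCharacter A ω)) {α : G → A ≃⋆ₐ[ℂ] A} (hα : SI.IsFolnerAction α) :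
    IsEquivZStable α :=
  isEquivZStable_of_invariantPair hω hα.1 hα.2.1
    (SI.hasInvariantPair_of_characterless hA hcp hcomp hτ hω hF α hα)

end Vale.Agent.P095.Lit
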