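import Vale.Agent.P101.Lit.Plain

/-! P095: equivariant `Z`-stability written with entries only. -/

open scoped unitInterval ComplexOrder

namespace Vale.Agent.P095.Lit

open Vale.Agent.P101.Lit

variable {A : Type*} [CStarAlgebra A] [PartialOrder A] [StarOrderedRing A]

/-- `h = (φ ⊗ id) f`. -/
def IsImage {p q : ℕ} (φ : A → A) (f h : Amb A p q) : Prop := ∀ t x y, h t x y = φ (f t x y)

/-- `u` is an `α`-cocycle of unitaries. -/
def IsUnitaryCocycle {G : Type*} [Group G] (α : G → A ≃⋆ₐ[ℂ] A) (u : G → A) : Prop :=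
  (∀ g, star (u g) * u g = 1 ∧ u g * star (u g) = 1) ∧ ∀ g h, u (g * h) = u g * α g (u h)

/-- `α` is cocycle conjugate to `α ⊗ id` on the limit of the stages `A ⊗ I(pp i, qq i)`. -/
def IsEquivZStablePlain {G : Type*} [Group G] (α : G → A ≃⋆ₐ[ℂ] A) : Prop :=
  ∃ (j : ∀ i, Amb A (pp i) (qq i) → A) (u : G → A),
    IsUnitaryCocycle α u ∧ (∀ i, IsStageEmbedding (j i)) ∧
    (∀ i f, InSt f → InSt (step (kl i) (kr i) f) ∧
      j (i + 1) (step (kl i) (kr i) f) = j i f) ∧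
    (∀ (a : A) (r : ℝ), 0 < r → ∃ i f, InSt f ∧ ‖j i f - a‖ < r) ∧
    ∀ i g f h, InSt f → IsImage (α g) f h → j i h = u g * α g (j i f) * star (u g)

end Vale.Agent.P095.Lit
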