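import Vale.Agent.P101.Lit.PlainProof
import Vale.Agent.P095.Lit.Defs
import Vale.Agent.P095.Lit.Plain

/-! P095: the entrywise statement follows from the bundled one. -/

open scoped unitInterval ComplexOrder

namespace Vale.Agent.P095.Lit

open Vale.Agent.P101.Lit

theorem isEquivZStablePlain_of_isEquivZStable {A : Type*} [CStarAlgebra A] [PartialOrder A]
    [StarOrderedRing A] {G : Type*} [Group G] {α : G → A ≃⋆ₐ[ℂ] A} (hα : IsEquivZStable α) :
    IsEquivZStablePlain α := by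
  classical
  obtain ⟨j, u, hnorm, hstep, hd, hu, hmul, hconj⟩ := hα
  obtain ⟨J, hJ⟩ : ∃ J : ∀ i, Amb A (pp i) (qq i) → A,
      ∀ i f (hf : f ∈ St A (pp i) (qq i)), J i f = j i ⟨f, hf⟩ :=
    ⟨fun i f => if hf : f ∈ St A (pp i) (qq i) then j i ⟨f, hf⟩ else 0,
      fun i f hf => dif_pos hf⟩
  refine ⟨J, u, ⟨fun g => Unitary.mem_iff.1 (hu g), hmul⟩,
    fun i => ⟨fun f g h hf hg hh => ⟨fun e => ?_, fun e => ?_⟩,
      fun c f h hf hh => ⟨fun e => ?_, fun e => ?_⟩, fun f hf => ⟨fun e => ?_, ?_⟩⟩,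
    fun i f hf => ?_, fun a r hr => ?_, fun i g f h hf e => ?_⟩
  · rw [hJ i h hh, hJ i f hf, hJ i g hg, ← map_add]
    exact congrArg (j i) (Subtype.ext (ContinuousMap.ext fun t => CStarMatrix.ext (e t)))
  · rw [hJ i h hh, hJ i f hf, hJ i g hg, ← map_mul]
    refine congrArg (j i) (Subtype.ext (ContinuousMap.ext fun t => CStarMatrix.ext fun x y => ?_))
    exact (e t x y).trans (CStarMatrix.mul_apply (M := f t) (N := g t)).symm
  · rw [hJ i h hh, hJ i f hf, ← map_smul]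
    exact congrArg (j i) (Subtype.ext (ContinuousMap.ext fun t => CStarMatrix.ext (e t)))
  · rw [hJ i h hh, hJ i f hf, ← map_star]
    exact congrArg (j i) (Subtype.ext (ContinuousMap.ext fun t => CStarMatrix.ext (e t)))
  · rw [hJ i f hf, ← map_one (j i)]
    exact congrArg (j i) (Subtype.ext (ContinuousMap.ext fun t => CStarMatrix.ext fun x y =>
      (e t x y).trans CStarMatrix.one_apply.symm))
  · rw [hJ i f hf]
    exact hnorm i ⟨f, hf⟩
  · obtain ⟨hm, he⟩ := hstep i ⟨f, hf⟩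
    exact ⟨hm, (hJ (i + 1) _ hm).trans (he.trans (hJ i f hf).symm)⟩
  · obtain ⟨y, hy, hay⟩ := Metric.mem_closure_iff.1 (hd a) r hr
    obtain ⟨i, f, rfl⟩ := Set.mem_iUnion.1 hy
    refine ⟨i, f.1, f.2, ?_⟩
    rw [hJ i f.1 f.2, norm_sub_rev]
    rwa [dist_eq_norm] at hay
  · have hh : h = (mapSt (autHom α g) _ _ ⟨f, hf⟩ : St A (pp i) (qq i)) :=
      ContinuousMap.ext fun t => CStarMatrix.ext (e t)
    subst hh
    rw [hJ i _ (Subtype.property _), hJ i f hf]
    exact hconj i g ⟨f, hf⟩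

end Vale.Agent.P095.Lit
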