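import Vale.Agent.P095.Lit.Main
import Vale.Agent.P095.Lit.Hyp
import Vale.Agent.P095.Lit.PlainProof

/-! P095: the equivariant `Z`-stability theorem in its final form. -/

open Filter Topology BoundedContinuousFunction
open scoped ComplexOrder

namespace Vale.Agent.P095.Lit

open Vale.Agent.P101 Vale.Agent.P101.Lit

universe u v

theorem isEmpty_fomegaCharacter_of_seq {A : Type*} [CStarAlgebra A] (h : HasDimDropSeq A)
    {ω : Ultrafilter ℕ} (hω : (ω : Filter ℕ) ≤ atTop) : IsEmpty (FomegaCharacter A ω) := by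
  obtain ⟨c, s, C, hb, hcomm, r1, r2, r3⟩ := h
  let cb : ℕ →ᵇ A := .ofNormedAddCommGroupDiscrete c C fun n => (hb n).1
  let sb : ℕ →ᵇ A := .ofNormedAddCommGroupDiscrete s C fun n => (hb n).2
  have hc : cb ∈ centralSeq A ω := fun a => (hcomm a).1.mono_left hω
  have hs : sb ∈ centralSeq A ω := fun a => (hcomm a).2.mono_left hω
  exact isEmpty_fomegaCharacter_iff.2 (isEmpty_of_dimDropPair
    ⟨_, _, (dimDropPair_mk_iff ⟨cb, hc⟩ ⟨sb, hs⟩).2
      ⟨r1.mono_left hω, r2.mono_left hω, r3.mono_left hω⟩⟩)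

theorem equivariant_statement :
    (∀ (A : Type u) [CStarAlgebra A] [PartialOrder A] [StarOrderedRing A]
      [TopologicalSpace.SeparableSpace A], HasDimDropSeq A →
      ∀ (G : Type v) [Group G] [Countable G] (α : G → A ≃⋆ₐ[ℂ] A),
      (∀ a, α 1 a = a) → (∀ g h a, α (g * h) a = α g (α h a)) →
      IsAmenableCase α ∨ IsLocallyFiniteCase α → IsEquivZStablePlain α) ∧
      ∀ i, StageFacts i := by
  refine ⟨fun A _ _ _ _ hseq G _ _ α h1 hmul hcase => ?_, stageFacts⟩
  refine isEquivZStablePlain_of_isEquivZStable ?_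
  obtain ⟨ω, hω⟩ : ∃ ω : Ultrafilter ℕ, (ω : Filter ℕ) ≤ atTop := Ultrafilter.exists_le atTop
  have hF := isEmpty_fomegaCharacter_of_seq hseq hω
  rcases hcase with ⟨hA, hcp, hcomp, hτ, _, hα⟩ | hfin
  · exact isEquivZStable_of_amenable hω hA hcp hcomp hτ hF hα
  · exact isEquivZStable_of_locallyFinite hω h1 hmul hfin hF

end Vale.Agent.P095.Lit
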